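import Vale.Agent.P028.MathlibUsed
import Vale.Agent.P028.H383.TAb
import Vale.Agent.P028.H472.L6
import Vale.Agent.P028.R226.TT
attribute [-instance] ProperSMul.toContinuousSMul IsTopologicalTorsor.toContinuousSMul IdemSemiring.toCanonicallyOrderedAdd IdemSemiring.toMulLeftMono IdemSemiring.toMulRightMono AddQuantale.instAddLeftMono AddQuantale.instAddRightMono Quantale.instMulLeftMono Quantale.instMulRightMono FiniteDimensional.rclike_to_real IsScalarTower.complexToReal FiniteDimensional.complexToReal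

/-!
# Class C0 of the full block M: aligned triples of large level, all the stages together
-/

namespace Vale.P028.SK

open Finset CF

variable {g : Cfg}

/-- class C0 of stage `i`: aligned from stage `i` on, level above `z i` -/
def C0i (g : Cfg) (i q r : ℕ) (n : ℤ) : Prop := TAj g i q r n ∧ (z g i : ℝ) < Dl g q r

/-- class C0 -/
def C0 (g : Cfg) (q r : ℕ) (n : ℤ) : Prop := ∃ i, 1 ≤ i ∧ i ≤ nst g ∧ C0i g i q r n

theorem half_pow_le_inv_log {x : ℝ} (hx : 1 < x) : x ^ (-(1 / 2) : ℝ) ≤ (Real.log x)⁻¹ := by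
  have h0 : 0 < x := by linarith
  have hl : 0 < Real.log x := Real.log_pos hx
  have h1 : Real.log x ≤ x ^ (1 / 2 : ℝ) := by
    have h2 : Real.log (x ^ (1 / 2 : ℝ)) ≤ x ^ (1 / 2 : ℝ) / Real.exp 1 := by
      have h3 := Real.add_one_le_exp (Real.log (x ^ (1 / 2 : ℝ)) - 1)
      rw [Real.exp_sub, Real.exp_log (by positivity)] at h3
      linarith
    rw [Real.log_rpow h0] at h2
    have h4 : (2 : ℝ) ≤ Real.exp 1 := by
      have := Real.add_one_le_exp (1 : ℝ)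
      linarith
    have h5 : x ^ (1 / 2 : ℝ) / Real.exp 1 ≤ x ^ (1 / 2 : ℝ) / 2 :=
      div_le_div_of_nonneg_left (by positivity) (by norm_num) h4
    linarith
  rw [Real.rpow_neg h0.le]
  exact inv_anti₀ hl h1

/-- **Class C0, all the stages together**, any dilution, any set of moduli of `V1`. -/
theorem sum_EnS_far : ∃ C > 0, ∀ g : Cfg, Real.exp 1 ≤ g.K.P.ρ0 ^ (-g.K.P.c0) →
    JsOK g.K g.Js → g.Js ≤ g.X → g.V ⊆ Icc 1 (N g) → 2 ≤ g.K.C2 → ∀ δ, Om δ →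
    ∀ S ⊆ V1 g, ∑ i ∈ Icc 1 (nst g), EnS g S δ (C0i g i) ≤ C * (∑ q ∈ S, f g q) ^ 2 := by
  obtain ⟨C, hC, h⟩ := EnS_TA_far
  refine ⟨C * 2, by positivity, ?_⟩
  intro g hρ hJ hX hV hC2 δ hδ S hS
  have hlog : ∀ i ∈ Icc 1 (nst g), 1 ≤ Real.log (z g i) := by
    intro i hi
    obtain ⟨h1, h2⟩ := mem_Icc.1 hi
    exact le_trans (one_le_pow₀ (by norm_num)) (log_z_geom hJ hX hC2 h1 h2)
  have h1 : ∀ i ∈ Icc 1 (nst g), EnS g S δ (C0i g i) ≤
      C * (∑ q ∈ S, f g q) ^ 2 * (Real.log (z g i))⁻¹ := by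
    intro i hi
    refine (h g hρ hJ hX hV δ hδ i S hS).trans ?_
    have h2 : (z g i : ℝ) ^ (-(1 / 2) : ℝ) ≤ (Real.log (z g i))⁻¹ := by
      refine half_pow_le_inv_log ?_
      by_contra hcon
      have h3 : Real.log (z g i) ≤ 0 := Real.log_nonpos (Nat.cast_nonneg _) (not_lt.1 hcon)
      linarith [hlog i hi]
    calc C * (z g i : ℝ) ^ (-(1 / 2) : ℝ) * (∑ q ∈ S, f g q) ^ 2
        ≤ C * (Real.log (z g i))⁻¹ * (∑ q ∈ S, f g q) ^ 2 :=
          mul_le_mul_of_nonneg_right (mul_le_mul_of_nonneg_left h2 hC.le) (sq_nonneg _)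
      _ = _ := by ring
  refine (sum_le_sum h1).trans ?_
  rw [← mul_sum]
  calc C * (∑ q ∈ S, f g q) ^ 2 * ∑ i ∈ Icc 1 (nst g), (Real.log (z g i))⁻¹
      ≤ C * (∑ q ∈ S, f g q) ^ 2 * 2 :=
        mul_le_mul_of_nonneg_left (sum_inv_log_z hJ hX hC2) (by positivity)
    _ = _ := by ring

open Classical in
/-- the union of the stages costs the sum -/
theorem EnS_ex {δ : ℕ → ℕ → ℝ} (hδ : Om δ) (S I : Finset ℕ) (T : ℕ → ℕ → ℕ → ℤ → Prop) :
    EnS g S δ (fun q r n => ∃ s ∈ I, T s q r n) ≤ ∑ s ∈ I, EnS g S δ (T s) := by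
  induction I using Finset.induction_on with
  | empty =>
    rw [sum_empty]
    refine (EnS_mono g hδ (T' := fun _ _ _ => False) fun q _ r _ n _ h => ?_).trans ?_
    · obtain ⟨s, hs, -⟩ := h
      exact notMem_empty s hs
    · unfold EnS
      refine le_of_eq (sum_eq_zero fun q _ => sum_eq_zero fun r _ => ?_)
      refine mul_eq_zero_of_right _ (sum_eq_zero fun n hn => ?_)
      simp at hn
  | insert a I ha ih =>
    rw [sum_insert ha]
    refine le_trans ?_ ((EnS_or g hδ S (T a) fun q r n => ∃ s ∈ I, T s q r n).trans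
      (add_le_add le_rfl ih))
    refine EnS_mono g hδ fun q _ r _ n _ h => ?_
    obtain ⟨s, hs, h1⟩ := h
    rcases mem_insert.1 hs with rfl | hs
    · exact Or.inl h1
    · exact Or.inr ⟨s, hs, h1⟩

/-- **Class C0** -/
theorem EnS_C0 : ∃ C > 0, ∀ g : Cfg, Real.exp 1 ≤ g.K.P.ρ0 ^ (-g.K.P.c0) →
    JsOK g.K g.Js → g.Js ≤ g.X → g.V ⊆ Icc 1 (N g) → 2 ≤ g.K.C2 → ∀ δ, Om δ →
    ∀ S ⊆ V1 g, EnS g S δ (C0 g) ≤ C * (∑ q ∈ S, f g q) ^ 2 := by
  obtain ⟨C, hC, h⟩ := sum_EnS_far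
  refine ⟨C, hC, ?_⟩
  intro g hρ hJ hX hV hC2 δ hδ S hS
  refine le_trans ?_ (h g hρ hJ hX hV hC2 δ hδ S hS)
  refine le_trans (EnS_mono g hδ fun q _ r _ n _ hT => ?_)
    (EnS_ex hδ S (Icc 1 (nst g)) (fun i => C0i g i))
  obtain ⟨i, h1, h2, h3⟩ := hT
  exact ⟨i, mem_Icc.2 ⟨h1, h2⟩, h3⟩

theorem ev_C2_0 : Ev (fun K _ => 2 ≤ K.C2) :=
  ⟨1, one_pos, fun _ _ _ => ⟨1, one_pos, fun _ _ _ => ⟨1, one_pos, fun _ _ _ =>
    ⟨0, fun _ _ => ⟨2, fun _ hC2 => ⟨0, fun _ _ _ => hC2⟩⟩⟩⟩⟩⟩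

/-- **Class C0**, with the constants -/
theorem ev_EnS_C0 : Ev (fun K Js => ∃ C ≥ 0, ∀ g : Cfg, g.K = K → g.Js = Js → g.Js ≤ g.X →
    g.V ⊆ Icc 1 (N g) → ∀ δ, Om δ → ∀ S ⊆ V1 g,
      EnS g S δ (C0 g) ≤ C * (∑ q ∈ S, f g q) ^ 2) := by
  obtain ⟨C, hC, h⟩ := EnS_C0
  refine (ev_numOK.and ev_C2_0).mono fun K Js hk => ⟨C, hC.le, ?_⟩
  obtain ⟨hN, hC2⟩ := hk
  intro g hK hJs hX hV δ hδ S hS
  have hN' : NumOK g.K g.Js := by rw [hK, hJs]; exact hN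
  have hC2' : 2 ≤ g.K.C2 := by rw [hK]; exact hC2
  exact h g hN'.e1 hN'.js hX hV hC2' δ hδ S hS

end Vale.P028.SK
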