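import Vale.Agent.P028.MathlibUsed
import Vale.Agent.P028.H758.Fin
import Vale.Agent.P028.R226.LkCover
attribute [-instance] ProperSMul.toContinuousSMul IsTopologicalTorsor.toContinuousSMul IdemSemiring.toCanonicallyOrderedAdd IdemSemiring.toMulLeftMono IdemSemiring.toMulRightMono AddQuantale.instAddLeftMono AddQuantale.instAddRightMono Quantale.instMulLeftMono Quantale.instMulRightMono FiniteDimensional.rclike_to_real IsScalarTower.complexToReal FiniteDimensional.complexToReal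

/-!
# The first question with the loss `(1 + logStar q) ^ 2` from the bound of the leak classes
-/

namespace Vale.P028.SK

open Finset CF

/-- the bound of the leak classes `LkC` -/
def LkCB (γ : ℝ) : Prop :=
  Ev (fun K Js => ∃ C X₀ : ℝ, ∀ g : Cfg, g.K = K → g.γ = γ → g.Js = Js → X₀ ≤ g.X →
    ∀ τ, VT g τ → ∀ i s, 1 ≤ i → i < s → s ≤ nst g →
      EnS g (V1 g) (fun _ _ => 0) (LkC g i s) ≤
        C * (nst g : ℝ) * (Real.log (z g s))⁻¹ * τ)

theorem TAlB_of_LkCB {γ : ℝ} (h : LkCB γ) : TAlB γ 1 := by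
  unfold LkCB at h
  unfold TAlB
  refine (h.and (ev_numOK.and ev_C2)).mono ?_
  rintro K Js ⟨⟨C, X₀, h1⟩, hN, hC2⟩
  refine ⟨4 * |C|, max X₀ Js, ?_⟩
  intro g hK hγ hJs hX τ hV i hi1 hi2
  have hX' : g.Js ≤ g.X := by rw [hJs]; exact (le_max_right _ _).trans hX
  have hJ : JsOK g.K g.Js := by rw [hK, hJs]; exact hN.js
  have hC2' : 2 ≤ g.K.C2 := by rw [hK]; exact hC2
  have hsub : V1 g ⊆ g.V := fun q hq => (mem_filter.1 (mem_filter.1 hq).1).1
  have hτ := hV.tau_pos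
  have hb : ∀ s ∈ Ioc i (nst g), EnS g (V1 g) (fun _ _ => 0) (LkC g i s) ≤
      |C| * (nst g : ℝ) * τ * (Real.log (z g s))⁻¹ := by
    intro s hs
    obtain ⟨h2, h3⟩ := mem_Ioc.1 hs
    refine (h1 g hK hγ hJs ((le_max_left _ _).trans hX) τ hV i s hi1 h2 h3).trans ?_
    have h4 : 0 ≤ (Real.log (z g s))⁻¹ :=
      inv_nonneg.2 (Real.log_nonneg (by exact_mod_cast one_le_z g s))
    have h5 := le_abs_self C
    calc C * (nst g : ℝ) * (Real.log (z g s))⁻¹ * τ =
          C * ((nst g : ℝ) * (Real.log (z g s))⁻¹ * τ) := by ring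
      _ ≤ |C| * ((nst g : ℝ) * (Real.log (z g s))⁻¹ * τ) :=
          mul_le_mul_of_nonneg_right h5 (by positivity)
      _ = _ := by ring
  have h2 : EnS g (V1 g) (fun _ _ => 0) (TAl g i) ≤
      2 * ∑ s ∈ Ioc i (nst g), EnS g (V1 g) (fun _ _ => 0) (LkC g i s) := by
    refine (EnS_mono g Om_zero (T' := fun q r n => (∃ s ∈ Ioc i (nst g), LkC g i s q r n) ∨
        ∃ s ∈ Ioc i (nst g), LkC g i s r q (-n)) fun q hq r hr n hn h => ?_).trans ?_
    · obtain ⟨s, hs, h3⟩ := leak_cover hJ hX' hV.sub (hsub hq) (hsub (mem_of_mem_erase hr)) hn h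
      exact h3.imp (fun h4 => ⟨s, hs, h4⟩) fun h4 => ⟨s, hs, h4⟩
    · refine (EnS_or g Om_zero (V1 g) _ _).trans ?_
      have h3 := EnS_exists (g := g) Om_zero (V1 g) (Ioc i (nst g)) (fun s => LkC g i s)
      have h4 := EnS_exists (g := g) Om_zero (V1 g) (Ioc i (nst g))
        (fun s q r n => LkC g i s r q (-n))
      have h5 : ∑ s ∈ Ioc i (nst g), EnS g (V1 g) (fun _ _ => 0)
          (fun q r n => LkC g i s r q (-n)) =
          ∑ s ∈ Ioc i (nst g), EnS g (V1 g) (fun _ _ => 0) (LkC g i s) :=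
        sum_congr rfl fun s _ => (EnS_swap (V1 g) _ (LkC g i s)).symm
      rw [h5] at h4
      linarith
  refine h2.trans ?_
  have h3 : ∑ s ∈ Ioc i (nst g), EnS g (V1 g) (fun _ _ => 0) (LkC g i s) ≤
      |C| * (nst g : ℝ) * τ * 2 := by
    refine (sum_le_sum hb).trans ?_
    rw [← mul_sum]
    exact mul_le_mul_of_nonneg_left (sum_inv_log_z_Ioc hJ hX' hC2' i) (by positivity)
  rw [pow_one]
  linarith

/-- **Block M with the loss `nst ^ 2`** -/
theorem BMk_two {γ : ℝ} (h : LkCB γ) : BMk γ 2 := BMk_of_TAl le_rfl (TAlB_of_LkCB h)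

/-- **The first question with the loss `(1 + logStar q) ^ 2`** -/
theorem q1_logStar_sq {γ : ℝ} (h : LkCB γ) (ψ : ℕ → ℝ) (hψ : ∀ q, 0 ≤ ψ q)
    (hdiv : ¬ Summable (fun q : ℕ => ((q.totient : ℝ) / q) * ψ q /
      (1 + (logStar q : ℝ)) ^ 2)) :
    MeasureTheory.volume (W γ ψ)ᶜ = 0 :=
  q1_lstar_of_BMk (BMk_two h) ψ hψ hdiv

end Vale.P028.SK
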